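import Crest.Agent.X212.Lit63.Gen
import Crest.Agent.X212.Fin37.Defs
import Crest.Agent.X212.Cht98.Jb
import Crest.Agent.X212.Eqv71.Job

/-!
# Row 212, FIN-LIT (helper63): solutions of a job have bounded representatives
-/

set_option autoImplicit false
set_option linter.unusedSectionVars false
noncomputable section
open scoped Manifold ContDiff Topology InnerProductSpace
open MeasureTheory Set Function Filter

namespace Crest.Agent.X212.Lit63
open An An.Job M Nd18 Cht98

variable {Wi : Type} {X : Mf 4} {A κ lam : Type} [Fintype A] [Fintype κ] [Fintype lam]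
  [DecidableEq lam] {M : Mark X A κ} {W : World M} {N : ML M lam}
  {Λ : Lns W N} {A' h : Type} [Fintype A'] [DecidableEq A'] [Fintype h] {r n : ℕ}
  {J : Job Wi Λ A' h r n}

/-- **FIN-LIT** -/
theorem litJ (hJ : J.OK) : Fin37.LIT J := fun σ hσ c q y hy =>
  lit (jEnds (θ := fun _ : ℝ => y.s) hJ (hJ.memBr hσ hy.ov) (hJ.memO hσ hy.ov) contDiff_const
    isClopen_univ isClopen_univ subset_rfl dl0_pos le_rfl) hy.sol.toAdm
    (β := fun i => y.β i.1 i.2) (fun i => ⟨(hy.crit _ i.1.2 _).sol.toAdm, (hy.crit _ i.1.2 _).tmp⟩)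
    (ζ := fun i => y.ζ i.1 i.2) fun i => by
      obtain ⟨a, _ | _⟩ := i
      exacts [hy.lim _ false _, hy.lim _ true _]

end Crest.Agent.X212.Lit63
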