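import Crest.Agent.X212.End3.Pnt
import Crest.Agent.X212.Dgr80.Cf

/-!
# Row 212, FIN-LIT (helper63): converging configurations have bounded representatives
-/

set_option autoImplicit false
set_option linter.unusedSectionVars false
noncomputable section
open scoped Manifold ContDiff Topology InnerProductSpace
open MeasureTheory Set Function Filter Real

namespace Crest.Agent.X212.Lit63
open An An.Pre Sob92 Prm93 Mod61 Nd18 Cyf70 Nk89 Pj41 Eqv71 End3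
open Tmp64 (AdmOn admOn_univ psh psh_spec)

variable {E : Type} [NormedAddCommGroup E] [NormedSpace ℝ E] [FiniteDimensional ℝ E]
  [MeasurableSpace E] [BorelSpace E]
  {HM : Type} [TopologicalSpace HM] {I : ModelWithCorners ℝ E HM} [I.Boundaryless]
  {M : Type} [TopologicalSpace M] [ChartedSpace HM M] [IsManifold I ∞ M]
  [MeasurableSpace M] [T2Space M] [BorelSpace M] [SecondCountableTopology M]
  {κ : Type} [Fintype κ] {lam : Type} [Fintype lam]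
  {T : Type} [NormedAddCommGroup T] [NormedSpace ℝ T]
  {N : Type} [NormedAddCommGroup N] [NormedSpace ℝ N]
  {𝔉 : Fam I M (Option κ) lam T} {δ R' : ℝ} (X : Ends 𝔉 δ) {r : ℕ}

theorem exists_R {S : X.A → Set ℝ} (hS : ∀ a, S a ∈ (X.P a).l) (R' : ℝ) :
    ∃ R, R' ≤ R ∧ ∀ a s, R ≤ (X.P a).sg * s → s ∈ S a := by
  refine ((eventually_ge_atTop R').and (eventually_all.2 fun a => ?_)).exists
  rcases sg_cases (X.P a) with ⟨k1, k2⟩ | ⟨k1, k2⟩
  · obtain ⟨b, hb⟩ := mem_atTop_sets.1 (k1 ▸ hS a)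
    exact (eventually_ge_atTop b).mono fun R h t ht => hb t (by rw [k2] at ht; linarith)
  · obtain ⟨b, hb⟩ := mem_atBot_sets.1 (k1 ▸ hS a)
    exact (eventually_ge_atTop (-b)).mono fun R h t ht => hb t (by rw [k2] at ht; linarith)

/-- a smooth function whose derivatives are eventually bounded on the ends -/
theorem cb_ev (hR : X.R ≤ R') {f : M → N} (hf : Sm I f) {g : ∀ a, (X.P a).Y.M × ℝ → N}
    (e : ∀ a z, R' < (X.P a).sg * z.2 → f ((X.P a).K.ψ z) = g a z)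
    (h : ∀ a w, ∃ C, ∃ S ∈ (X.P a).l, ∀ z, R' < (X.P a).sg * z.2 → z.2 ∈ S →
      ‖(X.P a).D.Z.Dw w (g a) z‖ ≤ C) : 𝔉.G0.F.Cb f := by
  refine cb_of_words hf fun w => ?_
  choose C S hS hC using fun a => h a w
  obtain ⟨R, k1, k2⟩ := exists_R X hS R'
  simpa using dom_of_ends X (hR.trans k1) (continuous_const (y := (1 : ℝ))) (fun _ => one_pos)
    (sm_Dw hf w).continuous fun a => ⟨C a, by
      rw [U_eq (X.okP a) (hR.trans k1)]
      exact forall_mem_image.2 fun z hz => by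
        rw [Dw_end (X.okP a) hR (e a) w (k1.trans_lt hz), mul_one]
        exact hC a z (k1.trans_lt hz) (k2 a _ (le_of_lt hz))⟩

theorem psh_alg {V W : Type} [Fintype V] [Fintype W] {D a : CL (Eu V) (Eu W)} {A : En V}
    {A' p : En W} (h : a ∘L ad a = p) :
    (A' ∘L p - (D + A' ∘L a - a ∘L A) ∘L trn a) -
      ad (A' ∘L p - (D + A' ∘L a - a ∘L A) ∘L trn a) ∘L ((1 : En W) - p) =
    (a ∘L A - D) ∘L ad a - (a ∘L ad (a ∘L A - D)) ∘L ((1 : En W) - a ∘L ad a) := by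
  have e : A' ∘L p - (D + A' ∘L a - a ∘L A) ∘L trn a = (a ∘L A - D) ∘L ad a := by
    rw [← ad_trn, ← h, ← ContinuousLinearMap.comp_assoc, ← ContinuousLinearMap.sub_comp]
    congr 1
    abel
  rw [e, h, ad_comp, ad_ad]

include X in
/-- the push forward to a bounded module -/
theorem gd_psh {c : Cfg M (Option κ) lam r} (hc : c.Adm 𝔉.B 𝔉.G0) {c' : Cfg M (Option κ) lam 0}
    (k1 : c'.Adm 𝔉.B 𝔉.G0) {a : M → CL c.m.V c'.m.V} (k2 : Iso0 I c.m c'.m univ a)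
    (cp : 𝔉.G0.F.Cb c'.m.p) (cρ : ∀ b, 𝔉.G0.F.Cb (c'.m.ρ b)) (cj : 𝔉.G0.F.Cb c'.m.j)
    (cA : ∀ b, 𝔉.G0.F.Cb (c'.W b)) (nA : ∀ b, 𝔉.G0.F.Cb fun x =>
      (𝔉.G0.F.D b a x + c'.W b x ∘L a x - a x ∘L c.W b x) ∘L trn (a x))
    (nP : 𝔉.G0.F.Cb fun x => a x (c.Φ x)) :
    ∃ x, Dgr80.Gd 𝔉.B 𝔉.G0 x ∧ Cfg.Iso 𝔉.B 𝔉.G0.F x c := by
  have h := X.ok
  have wt := fun {V : Type} [NormedAddCommGroup V] [NormedSpace ℝ V] {f : M → V} =>
    (X.wt.toWtP.Cb (f := f)).1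
  obtain ⟨p1, p2⟩ := psh_spec h.B h.G0.P hc k1.ok k2
  have cW : ∀ b, 𝔉.G0.F.Cb (pshW I (𝔉.G0.F.e b) a (c.W b)) := fun b => by
    have s := Cb_sub (Cb_comp (cA b) cp) (nA b)
    have t := Cb_sub s (Cb_comp (Cb_clm adL s) (Cb_sub (Cb_const (1 : En (Fin c'.m.N))) cp))
    exact (congrArg _ (funext fun x => psh_alg (k2.iso x trivial).tgt)).mp t
  exact ⟨_, ⟨⟨h.B, h.G0, k1.ok, p1.conn, X.tame, cW, Std94.Kl.Dat.pg
    (K := Std94.cbK 𝔉.G0.F.toPre) (φ := id) ⟨fun a b => wt (h.cP a b), fun a b c d =>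
      wt (h.co a b c d), cp, cρ, cj⟩ h.B (Std94.pmx k1.ok)⟩, p1, nP, cp, cρ, cj⟩,
    (p2.symm (admOn_univ.2 hc) (admOn_univ.2 p1)).cfgIso h.B p1 hc⟩

variable {c : Cfg M (Option κ) lam r} {β : ∀ a, YC (X.P a).Y.M κ lam} {ζ : X.A → Circle}
  {c' : Cfg M (Option κ) lam 0} {a : M → CL c.m.V c'.m.V}
  {u : ∀ e, (X.P e).Y.M × ℝ → CL c.m.V (β e).m.V} {i : ∀ e, CL (β e).m.V c'.m.V} {R : ℝ}

variable (ζ a u i R) in
/-- a literal model on the ends -/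
structure Dt : Prop where
  hR : X.R ≤ R
  k1 : c'.Adm 𝔉.B 𝔉.G0
  k2 : Iso0 I c.m c'.m univ a
  i1 : ∀ e, Emb (β e).m.J c'.m.J (i e)
  lt : ∀ e (z : (X.P e).Y.M × ℝ), R + 4 < (X.P e).sg * z.2 →
    a ((X.P e).K.ψ z) = i e ∘L u e z ∧ LitAt c' (ph (ζ e)⁻¹ (β e)) (i e) ((X.P e).K.ψ z) z.1
  su : ∀ e z, R < (X.P e).sg * z.2 → FSm (IC (X.P e).Y.I) (u e) z
  sW : ∀ e b z, R < (X.P e).sg * z.2 →
    FSm (IC (X.P e).Y.I) (fun z => c.W b ((X.P e).K.ψ z)) z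
  sΦ : ∀ e z, R < (X.P e).sg * z.2 → FSm (IC (X.P e).Y.I) (fun z => c.Φ ((X.P e).K.ψ z)) z
  hu : ∀ e k, ∃ S ∈ (X.P e).l, (X.P e).D.Cls ((X.P e).K.pb c) (β e) (u e) (ζ e) S k 1

theorem exists_dt (hc : c.Adm 𝔉.B 𝔉.G0) (hβ : ∀ a, (X.P a).D.Adm (β a))
    (hl : ∀ a, (X.P a).K.Lim c (β a) (ζ a) (X.P a).l) :
    ∃ (c' : Cfg M (Option κ) lam 0) (a : M → CL c.m.V c'.m.V)
      (u : ∀ e, (X.P e).Y.M × ℝ → CL c.m.V (β e).m.V) (i : ∀ e, CL (β e).m.V c'.m.V) (R : ℝ),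
      Dt X ζ a u i R := by
  have h := X.ok
  have H := X.okP
  choose u hu using hl
  choose S hS hJ h1 using fun a => hu a 0 1 one_pos
  obtain ⟨R, hR, hRS⟩ := exists_R X hS X.R
  have hR4 : X.R ≤ R + 4 := by linarith
  have h0 : (noz c).Adm 𝔉.B 𝔉.G0 := ⟨hc.ok, hc.conn, hc.sm, hc.pos, .inl rfl⟩
  have adm : ∀ a, AdmOn (cmC (X.P a).K.ψ (noz c)) (X.P a).D.B (X.P a).D.G
      {z | R < (X.P a).sg * z.2} := fun a => ((nk_gRel (X.P a).K).mono (isOpen_hi _ R)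
        fun z hz => mem_src (H a) hR hz).admOn_iff.2 ((admOn_univ.2 h0).mono (subset_univ _))
  have iu : ∀ a, Iso0 _ (cmM (X.P a).K.ψ c.m) (cy (β a)).m {z | R < (X.P a).sg * z.2} (u a) :=
    fun a => have s : {z : _ × ℝ | R < (X.P a).sg * z.2} ⊆ univ ×ˢ S a := fun z hz =>
        ⟨trivial, hRS a _ (le_of_lt hz)⟩
      have k := (h1 a).m
      .of_mEq (isOpen_hi _ R) ⟨k.su.mono s, fun x hx => k.uu x (s hx), fun x hx => k.uu' x (s hx),
        fun x hx => k.J x (s hx), fun x hx => k.ρ x (s hx), fun x hx => k.j x (s hx)⟩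
        (adm a).ok (OK.on (hβ a).adm.ok _)
  have el := fun a => end_lit (H a) hR (c := c) (adm_ph (hβ a) (ζ a)⁻¹) (iu a)
  choose hf f1 f2 f3 using fun a => exists_height (K := fun _ : Unit => (X.P a).K)
    (σ := fun _ => (X.P a).sg) (R := R) fun _ s hs => mem_J (H a) hR hs
  obtain ⟨c', a, k1, k2, k3⟩ := exists_lits h.G0.P (c := ⟨c.m, c.W, c.Φ, 0⟩) h0
    (fun a => (el a).1) (fun a => (el a).2) f1
    (fun a x hx => (f2 a x hx).elim fun _ k => mem_U' (H a) hR k)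
    fun a b k => (X.dis k).mono (U_mono _ hR) (U_mono _ hR)
  choose i i1 i2 using k3
  refine ⟨c', a, u, i, R, hR, k1, k2, i1, fun e z hz => ?_, fun e z hz => (iu e).su z hz,
    fun e b z hz => (adm e).conn.sm b z hz, fun e z hz => (adm e).sm z hz,
    fun e k => let ⟨S, k1, _, k2⟩ := hu e k 1 one_pos; ⟨S, k1, k2⟩⟩
  have s := mem_src (H e) hR4 hz
  obtain ⟨j1, j⟩ := i2 e _ (f3 e () _ (by rw [(X.P e).K.tm_ψ z s]; exact hz.le))
  rw [(X.P e).K.ψ.left_inv s] at j1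
  refine ⟨j1, ?_⟩
  rw [show z.1 = ((X.P e).K.ψ.symm ((X.P e).K.ψ z)).1 by rw [(X.P e).K.ψ.left_inv s]]
  exact ⟨j.p, j.ρ, j.j, j.W, j.Φ⟩

namespace Dt
variable {X} (d : Dt X ζ a u i R) (hc : c.Adm 𝔉.B 𝔉.G0) (hβ : ∀ a, (X.P a).D.Adm (β a))
include d

theorem R4 : X.R ≤ R + 4 := by linarith [d.hR]

theorem sa : Sm I a := fun x => d.k2.su x trivial

include hc hβ

theorem nA (b : Option κ) : 𝔉.G0.F.Cb fun x =>
    (𝔉.G0.F.D b a x + c'.W b x ∘L a x - a x ∘L c.W b x) ∘L trn (a x) := by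
  have hi : ∀ {e} {z : (X.P e).Y.M × ℝ}, R + 4 < (X.P e).sg * z.2 → R < (X.P e).sg * z.2 :=
    fun hz => by linarith
  refine cb_ev X d.R4 (fun x => ?_)
    (g := fun e z => cjL (i e) ((X.P e).D.dA ((X.P e).K.pb c) (β e) (u e) b z))
    (fun e z hz => ?_) fun e w => ?_
  · have := FSm.cc (((dv_smoothAt (𝔉.G0.F.sm b x) (d.sa x)).add
      (FSm.cc (d.k1.conn.cc.sm b x) (d.sa x))).sub (FSm.cc (d.sa x) (hc.conn.cc.sm b x)))
      (FSm.ad (d.sa x))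
    simp only [ad_trn] at this
    exact this
  · have e1 : 𝔉.G0.F.D b a ((X.P e).K.ψ z) = i e ∘L (X.P e).D.Z.D b (u e) z :=
      (Dw_end (X.okP e) d.R4 (fun z hz => (d.lt e z hz).1) [b] hz).trans
        (dv_clm (ContinuousLinearMap.compL ℝ c.m.V _ _ (i e)) (d.su e z (hi hz)).md)
    rw [e1, (d.lt e z hz).2.W, (d.lt e z hz).1]
    exact dA_emb (d.i1 e).iso _ _ _ _
  · obtain ⟨S, k1, k2⟩ := d.hu e w.length
    refine ⟨‖cjL (i e)‖ * 1, S, k1, fun z hz hz' => ?_⟩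
    rw [Dw_clm_on (isOpen_hi _ R) _ w (fun z hz => ?_) z (hi hz)]
    · exact (ContinuousLinearMap.le_opNorm _ _).trans
        (mul_le_mul_of_nonneg_left (k2.A b w le_rfl z ⟨trivial, hz'⟩) (norm_nonneg _))
    · have su := d.su e z hz
      have := FSm.cc (((dv_smoothAt ((X.P e).D.Z.sm b z) su).add (FSm.cc
        ((hβ e).adm.conn.cc.sm b z) su)).sub (FSm.cc su (d.sW e b z hz))) (FSm.ad su)
      exact this.congr_of_eventuallyEq (.of_forall fun y => congrArg (_ ∘L ·) (ad_trn _).symm)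

theorem nP (cΦ : 𝔉.G0.F.Cb c'.Φ) : 𝔉.G0.F.Cb fun x => a x (c.Φ x) := by
  have hi : ∀ {e} {z : (X.P e).Y.M × ℝ}, R + 4 < (X.P e).sg * z.2 → R < (X.P e).sg * z.2 :=
    fun hz => by linarith
  have k : 𝔉.G0.F.Cb fun x => a x (c.Φ x) - c'.Φ x := by
    refine cb_ev X d.R4 ((d.sa.clm_apply hc.sm).sub d.k1.sm)
      (g := fun e z => (i e ∘L csL (β e).m.J ((ζ e)⁻¹ : Circle))
        (YD.dP ((X.P e).K.pb c) (β e) (u e) (ζ e) z)) (fun e z hz => ?_) fun e w => ?_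
    · rw [(d.lt e z hz).1, (d.lt e z hz).2.Φ, YD.dP, map_sub]
      simp only [ContinuousLinearMap.comp_apply, csL_apply]
      rw [cs_mul (show (β e).m.J * (β e).m.J = -1 from (hβ e).adm.ok.Jsq), ← Circle.coe_mul,
        inv_mul_cancel, Circle.coe_one, cs_one]
      rfl
    · obtain ⟨S, k1, k2⟩ := d.hu e w.length
      refine ⟨‖i e ∘L csL (β e).m.J ((ζ e)⁻¹ : Circle)‖ * 1, S, k1, fun z hz hz' => ?_⟩
      rw [Dw_clm_on (isOpen_hi _ R) _ w (fun z hz => ?_) z (hi hz)]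
      · exact (ContinuousLinearMap.le_opNorm _ _).trans
          (mul_le_mul_of_nonneg_left (k2.P w le_rfl z ⟨trivial, hz'⟩) (norm_nonneg _))
      · exact ((csL (β e).m.J (ζ e)).contMDiff.contMDiffAt.comp z
          ((d.su e z hz).clm_apply (d.sΦ e z hz))).sub ((hβ e).adm.sm z)
  exact (congrArg _ (funext fun x => sub_add_cancel (a x (c.Φ x)) (c'.Φ x))).mp (Cb_add k cΦ)

end Dt

/-- **a configuration which converges on the ends has a bounded representative** -/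
theorem lit (hc : c.Adm 𝔉.B 𝔉.G0) (hβ : ∀ a, (X.P a).D.Adm (β a))
    (hl : ∀ a, (X.P a).K.Lim c (β a) (ζ a) (X.P a).l) :
    ∃ x, Dgr80.Gd 𝔉.B 𝔉.G0 x ∧ Cfg.Iso 𝔉.B 𝔉.G0.F x c := by
  obtain ⟨c', a, u, i, R, d⟩ := exists_dt X hc hβ hl
  have k1 := d.k1
  have cb := fun e => exists_cbc.1 (exists_cbc_cy (adm_stab (adm_ph (hβ e) (ζ e)⁻¹) (d.i1 e)))
  have wt := fun {V : Type} [NormedAddCommGroup V] [NormedSpace ℝ V] {f : M → V} =>
    (X.wt.toWtP.Cb (f := f)).1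
  exact gd_psh X hc k1 d.k2
    (wt (cb_of_lit X d.R4 k1.ok.sp (fun e z hz => (d.lt e z hz).2.p) fun e => (cb e).1))
    (fun b => wt (cb_of_lit X d.R4 (k1.ok.sρ b) (fun e z hz => (d.lt e z hz).2.ρ b)
      fun e => (cb e).2.1 b))
    (wt (cb_of_lit X d.R4 k1.ok.sj (fun e z hz => (d.lt e z hz).2.j) fun e => (cb e).2.2.1))
    (fun b => wt (cb_of_lit X d.R4 (fun x => k1.conn.cc.sm b x)
      (fun e z hz => (d.lt e z hz).2.W b) fun e => (cb e).2.2.2.1 b)) (d.nA hc hβ)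
    (d.nP hc hβ (wt (cb_of_lit X d.R4 k1.sm (fun e z hz => (d.lt e z hz).2.Φ)
      fun e => (cb e).2.2.2.2)))

end Crest.Agent.X212.Lit63
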